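import Vale.Agent.P261.H468.Spec

/-!
# P261: transport of the finiteness on the curve to `MvPowerSeries (Fin 1) k`
-/

open Vale.Agent.P251.F Vale.Agent.P251 Vale.Agent.P217

namespace Vale.Agent.P261

namespace H808

/-- the isomorphism `k[[X_0]] = k[[X]]` -/
noncomputable def eqv (k : Type) [Field k] : MvPowerSeries (Fin 1) k ≃ₐ[k] PowerSeries k :=
  MvPowerSeries.renameEquiv k (Equiv.ofUnique (Fin 1) Unit)

/-- the isomorphism as a ring map -/
noncomputable def up (k : Type) [Field k] : MvPowerSeries (Fin 1) k →+* PowerSeries k :=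
  ((eqv k : MvPowerSeries (Fin 1) k ≃ₐ[k] PowerSeries k) :
    MvPowerSeries (Fin 1) k →ₐ[k] PowerSeries k).toRingHom

/-- the inverse isomorphism as a ring map -/
noncomputable def dn (k : Type) [Field k] : PowerSeries k →+* MvPowerSeries (Fin 1) k :=
  (((eqv k).symm : PowerSeries k ≃ₐ[k] MvPowerSeries (Fin 1) k) :
    PowerSeries k →ₐ[k] MvPowerSeries (Fin 1) k).toRingHom

variable {k : Type} [Field k]

theorem up_dn (a : PowerSeries k) : up k (dn k a) = a := (eqv k).apply_symm_apply a

theorem dn_up (a : MvPowerSeries (Fin 1) k) : dn k (up k a) = a := (eqv k).symm_apply_apply a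

theorem dn_comp_up : (dn k).comp (up k) = RingHom.id _ := RingHom.ext dn_up

theorem up_C (c : k) : up k (MvPowerSeries.C c) = PowerSeries.C c :=
  MvPowerSeries.rename_C (R := k) (Equiv.ofUnique (Fin 1) Unit) c

theorem dn_C (c : k) : dn k (PowerSeries.C c) = MvPowerSeries.C c := by
  rw [← up_C, dn_up]

theorem up_X (i : Fin 1) : up k (MvPowerSeries.X i) = PowerSeries.X :=
  MvPowerSeries.rename_X (R := k) (Equiv.ofUnique (Fin 1) Unit) i

theorem constantCoeff_up (a : MvPowerSeries (Fin 1) k) :
    PowerSeries.constantCoeff (up k a) = MvPowerSeries.constantCoeff a :=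
  MvPowerSeries.constantCoeff_rename (R := k) (Equiv.ofUnique (Fin 1) Unit) a

theorem constantCoeff_dn (a : PowerSeries k) :
    MvPowerSeries.constantCoeff (dn k a) = PowerSeries.constantCoeff a := by
  rw [← constantCoeff_up, up_dn]

theorem constantCoeff_comp_up :
    (PowerSeries.constantCoeff (R := k)).comp (up k) = MvPowerSeries.constantCoeff :=
  RingHom.ext constantCoeff_up

theorem coeff_up (n : ℕ) (a : MvPowerSeries (Fin 1) k) :
    PowerSeries.coeff n (up k a) = MvPowerSeries.coeff (Finsupp.single 0 n) a := by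
  have h := MvPowerSeries.coeff_embDomain_rename (R := k)
    (Equiv.ofUnique (Fin 1) Unit).toEmbedding a (Finsupp.single 0 n)
  rw [Finsupp.embDomain_single] at h
  exact h

/-- transport of a level with one variable to the curve -/
noncomputable def toCurve {p h m : ℕ} {H : Law k} (L : Lev p h H 1) (hm : L.m = m) :
    Curve p m H where
  F := L.F.map (up k)
  φ γ := (up k).comp ((L.φ γ).comp (dn k))
  g γ := InvSeries.map (up k) (L.g γ)
  law γ := by
    rw [Law.map_map, RingHom.comp_assoc, RingHom.comp_assoc, dn_comp_up, RingHom.comp_id,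
      ← Law.map_map, ← InvSeries.map_smul, L.law]
  vlow i hi := by
    rw [vv_map, L.vlow i (by omega), map_zero]
  vX := by
    have h := L.vX 0
    rw [vv_map, ← hm]
    rw [Fin.val_zero, add_zero] at h
    rw [h, up_X]
  alg γ c := by
    rw [RingHom.comp_apply, RingHom.comp_apply, dn_C, L.alg, up_C]
  red γ a := by
    rw [RingHom.comp_apply, RingHom.comp_apply, constantCoeff_up, L.red, constantCoeff_dn]
  gred γ := by
    rw [InvSeries.map_map, constantCoeff_comp_up, L.gred]
  Fred := by
    rw [Law.map_map, constantCoeff_comp_up, L.Fred]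
  cont M := by
    obtain ⟨m', h⟩ := L.cont M
    refine ⟨m', fun γ hγ a e he => ?_⟩
    rw [RingHom.comp_apply, RingHom.comp_apply, coeff_up, h γ hγ _ _ (by
      rwa [Finsupp.degree_single]), ← coeff_up, up_dn]

theorem mem_inv {p h m : ℕ} {H : Law k} (L : Lev p h H 1) (hm : L.m = m) (w : ℤ)
    (a : MvPowerSeries (Fin 1) k) (ha : a ∈ L.inv w) : up k a ∈ (toCurve L hm).inv w := by
  intro γ
  have h1 : L.φ γ a = (((L.g γ).lead ^ w : (MvPowerSeries (Fin 1) k)ˣ) :
    MvPowerSeries (Fin 1) k) * a := ha γ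
  change up k (L.φ γ (dn k (up k a))) = (((InvSeries.map (up k) (L.g γ)).lead ^ w :
    (PowerSeries k)ˣ) : PowerSeries k) * up k a
  rw [dn_up, h1, map_mul, InvSeries.lead_map, ← map_zpow]
  rfl

/-- Finiteness on the curve gives finiteness for one variable. -/
theorem isFin_of_curve {p h : ℕ} {H : Law k} (L : Lev p h H 1)
    (hc : ∀ w : ℤ, ((toCurve L rfl).inv w : Set (PowerSeries k)).Finite ∧
      (w < 0 → ∀ a ∈ (toCurve L rfl).inv w, a = 0)) : L.IsFin := by
  intro w
  obtain ⟨h1, h2⟩ := hc w
  refine ⟨?_, fun hw a ha => ?_⟩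
  · refine Set.Finite.of_finite_image (f := up k) (h1.subset ?_) ?_
    · rintro _ ⟨a, ha, rfl⟩
      exact mem_inv L rfl w a ha
    · intro a _ b _ hab
      rw [← dn_up a, ← dn_up b]
      exact congrArg _ hab
  · have h0 := h2 hw _ (mem_inv L rfl w a ha)
    rw [← dn_up a, h0, map_zero]

end H808

end Vale.Agent.P261
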