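import Vale.Agent.P261.H808.B7a
import Vale.Agent.P261.H452.B6

/-!
# P261: finiteness for one variable (leaf B7)
-/

open Vale.Agent.P251.F Vale.Agent.P251 Vale.Agent.P217

namespace Vale.Agent.P261

/-- Finiteness for one variable. -/
theorem Lev.fin_one {p h : ℕ} [Fact p.Prime] {k : Type} [Field k] {H : Law k}
    (hk : Nat.card k = p ^ h) (hH : HondaOver p h H.toFG) (L : Lev p h H 1) (hm : 1 ≤ L.m) :
    L.IsFin := by
  have hh : h = L.m + 1 := L.hm.symm
  exact H808.isFin_of_curve L fun w => Curve.fin hm (hk.trans (congrArg (fun t => p ^ t) hh))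
    (Eq.mp (congrArg (fun t => HondaOver p t H.toFG) hh) hH) (H808.toCurve L rfl) w

end Vale.Agent.P261
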